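import Mathlib

/-!
P248, few vertices: the exponential integral over the cone above a set in an affine hyperplane.
-/

noncomputable section

open MeasureTheory Set
open scoped ENNReal Nat Pointwise

namespace Vale.Agent.P248.FewVertices

/-- The open cone over `{1} × S` in `ℝ^(n+1)`. -/
def coneOver {n : ℕ} (S : Set (Fin n → ℝ)) : Set (Fin (n + 1) → ℝ) :=
  {x | 0 < x 0 ∧ (fun j => (x 0)⁻¹ * x j.succ) ∈ S}

lemma measurableSet_coneOver {n : ℕ} {S : Set (Fin n → ℝ)} (hS : MeasurableSet S) :
    MeasurableSet (coneOver S) :=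
  (measurableSet_lt measurable_const (measurable_pi_apply 0)).inter
    (hS.preimage (measurable_pi_lambda _ fun j =>
      ((measurable_pi_apply 0).inv).mul (measurable_pi_apply j.succ)))

/-- The exponential integral over the cone. -/
theorem coneOver_integral {n : ℕ} {S : Set (Fin n → ℝ)} (hS : MeasurableSet S) {a : ℝ}
    (ha : 0 < a) :
    ∫⁻ x in coneOver S, ENNReal.ofReal (Real.exp (-(a * x 0))) =
      ENNReal.ofReal ((n ! : ℝ) / a ^ (n + 1)) * volume S := by
  have hmp := volume_preserving_piFinSuccAbove (fun _ : Fin (n + 1) => ℝ) 0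
  set T : Set (ℝ × (Fin n → ℝ)) := {p | 0 < p.1 ∧ (fun j => p.1⁻¹ * p.2 j) ∈ S} with hT
  have hTm : MeasurableSet T :=
    (measurableSet_lt measurable_const measurable_fst).inter
      (hS.preimage (measurable_pi_lambda _ fun j =>
        (measurable_fst.inv).mul ((measurable_pi_apply j).comp measurable_snd)))
  have hpre : (MeasurableEquiv.piFinSuccAbove (fun _ : Fin (n + 1) => ℝ) 0) ⁻¹' T = coneOver S := by
    ext x
    simp [hT, coneOver, MeasurableEquiv.piFinSuccAbove_apply, Fin.tail_def]
  have hg : Measurable fun p : ℝ × (Fin n → ℝ) =>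
      T.indicator (fun q => ENNReal.ofReal (Real.exp (-(a * q.1)))) p :=
    (by fun_prop : Measurable fun q : ℝ × (Fin n → ℝ) =>
      ENNReal.ofReal (Real.exp (-(a * q.1)))).indicator hTm
  rw [← lintegral_indicator (measurableSet_coneOver hS)]
  have hfun : (coneOver S).indicator (fun x => ENNReal.ofReal (Real.exp (-(a * x 0)))) =
      fun x => T.indicator (fun q => ENNReal.ofReal (Real.exp (-(a * q.1))))
        (MeasurableEquiv.piFinSuccAbove (fun _ : Fin (n + 1) => ℝ) 0 x) := by
    funext x
    have h0 : (MeasurableEquiv.piFinSuccAbove (fun _ : Fin (n + 1) => ℝ) 0 x).1 = x 0 := by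
      simp [MeasurableEquiv.piFinSuccAbove_apply]
    rw [← hpre]
    by_cases h : MeasurableEquiv.piFinSuccAbove (fun _ : Fin (n + 1) => ℝ) 0 x ∈ T
    · rw [indicator_of_mem h, indicator_of_mem (show x ∈ _ ⁻¹' T from h), h0]
    · rw [indicator_of_notMem h, indicator_of_notMem (show x ∉ _ ⁻¹' T from h)]
  rw [hfun, hmp.lintegral_comp hg, Measure.volume_eq_prod, lintegral_prod _ hg.aemeasurable]
  have hinner : ∀ s : ℝ, ∫⁻ y, T.indicator (fun q => ENNReal.ofReal (Real.exp (-(a * q.1)))) (s, y) =
      (Ioi (0 : ℝ)).indicator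
        (fun s => ENNReal.ofReal (s ^ n * Real.exp (-(a * s))) * volume S) s := by
    intro s
    rcases le_or_gt s 0 with hs | hs
    · have : ∀ y, (s, y) ∉ T := fun y h => absurd h.1 (not_lt.2 hs)
      simp [indicator_of_notMem (this _), indicator_of_notMem (show s ∉ Ioi (0 : ℝ) from not_lt.2 hs)]
    · rw [indicator_of_mem (show s ∈ Ioi (0 : ℝ) from hs)]
      have hset : ∀ y, (s, y) ∈ T ↔ y ∈ (fun z : Fin n → ℝ => s⁻¹ • z) ⁻¹' S := fun y => by
        simp [hT, hs]
        rfl
      have hfun' : (fun y => T.indicator (fun q => ENNReal.ofReal (Real.exp (-(a * q.1)))) (s, y)) =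
          ((fun z : Fin n → ℝ => s⁻¹ • z) ⁻¹' S).indicator
            (fun _ => ENNReal.ofReal (Real.exp (-(a * s)))) := by
        funext y
        by_cases h : (s, y) ∈ T
        · rw [indicator_of_mem h, indicator_of_mem ((hset y).1 h)]
        · rw [indicator_of_notMem h, indicator_of_notMem fun h' => h ((hset y).2 h')]
      rw [hfun', lintegral_indicator (hS.preimage (by fun_prop)), setLIntegral_const,
        Measure.addHaar_preimage_smul _ (inv_ne_zero hs.ne'), Module.finrank_fin_fun, inv_pow,
        inv_inv, abs_of_pos (pow_pos hs n), ← mul_assoc,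
        ← ENNReal.ofReal_mul (Real.exp_pos _).le, mul_comm (Real.exp _)]
  rw [lintegral_congr hinner, lintegral_indicator measurableSet_Ioi,
    lintegral_mul_const _ (by fun_prop)]
  congr 1
  have hval : ∫ s in Ioi (0 : ℝ), s ^ n * Real.exp (-(a * s)) = (n ! : ℝ) / a ^ (n + 1) := by
    have h := Real.integral_rpow_mul_exp_neg_mul_Ioi (a := (n : ℝ) + 1) (r := a) (by positivity) ha
    simp only [add_sub_cancel_right, Real.rpow_natCast] at h
    rw [h, Real.Gamma_nat_eq_factorial, ← Nat.cast_succ, Real.rpow_natCast, one_div, inv_pow]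
    field_simp
  have hint : Integrable (fun s : ℝ => s ^ n * Real.exp (-(a * s))) (volume.restrict (Ioi 0)) :=
    Integrable.of_integral_ne_zero (by rw [hval]; positivity)
  rw [← hval, ofReal_integral_eq_lintegral_ofReal hint
    ((ae_restrict_iff' measurableSet_Ioi).2 (Filter.Eventually.of_forall fun s hs =>
      mul_nonneg (pow_nonneg (le_of_lt hs) _) (Real.exp_pos _).le))]

end Vale.Agent.P248.FewVertices
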