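import Vale.Agent.P248.FewVertices.Frame
import Vale.Agent.P248.FewVertices.ConeIntegral
import Vale.Agent.P248.Ellipsoids.Defs

/-!
P248, few vertices: the volume product of a polytope about an interior point, from the cone lemmas.
-/

noncomputable section

open MeasureTheory Set Matrix
open scoped ENNReal Nat

namespace Vale.Agent.P248.FewVertices

open Vale.Agent.P248.Ellipsoids (polarSet)

/-- The lower bound for the mass of a subspace section of the exponential density. -/
def MassLower : Prop :=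
  ∀ {m N : ℕ} (v : Fin N → Fin m → ℝ),
    (∀ j k, ∑ i, v i j * v i k = if j = k then 1 else 0) →
    ∀ x0 : Fin m → ℝ, (∀ i, ∑ j, v i j * x0 j = 1) →
      ENNReal.ofReal ((2 * Real.pi * Real.exp 1) ^ (-((N : ℝ) - m) / 2)) ≤
        ∫⁻ x in {x : Fin m → ℝ | ∀ i, 0 ≤ ∑ j, v i j * x j},
          ENNReal.ofReal (Real.exp (-∑ i, ∑ j, v i j * x j))

variable {n N : ℕ}

/-- The slack at the analytic centre: the gradient of the logarithmic barrier vanishes. -/
lemma exists_centre (hn : 0 < n) (a : Fin N → Fin n → ℝ)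
    (hb : Bornology.IsBounded {x : Fin n → ℝ | ∀ i, ∑ j, a i j * x j ≤ 1}) :
    0 < N ∧ ∃ u : Fin n → ℝ, (∀ i, 0 < 1 - ∑ j, a i j * u j) ∧
      ∀ j, ∑ i, a i j / (1 - ∑ k, a i k * u k) = 0 := by
  classical
  set B := {x : Fin n → ℝ | ∀ i, ∑ j, a i j * x j ≤ 1} with hB
  have hN : 0 < N := by
    rcases Nat.eq_zero_or_pos N with h | h
    · subst h
      obtain ⟨C, hC⟩ := hb.exists_norm_le
      have h1 := hC (fun _ => |C| + 1) (by intro i; exact i.elim0)
      haveI : Nonempty (Fin n) := ⟨⟨0, hn⟩⟩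
      rw [pi_norm_const, Real.norm_of_nonneg (by positivity)] at h1
      linarith [le_abs_self C]
    · exact h
  refine ⟨hN, ?_⟩
  have hcl : IsClosed B := by
    simp only [hB, setOf_forall]
    exact isClosed_iInter fun i => isClosed_le (by fun_prop) continuous_const
  have hc : IsCompact B := Metric.isCompact_of_isClosed_isBounded hcl hb
  set g : (Fin n → ℝ) → ℝ := fun x => ∏ i, (1 - ∑ j, a i j * x j) with hg
  obtain ⟨u, huB, hmax⟩ := hc.exists_isMaxOn ⟨0, fun i => by simp⟩
    (f := g) (by fun_prop : Continuous g).continuousOn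
  have hu0 : 0 < g u := by
    refine lt_of_lt_of_le ?_ (hmax (show (0 : Fin n → ℝ) ∈ B from fun i => by simp))
    simp [hg]
  have hpos : ∀ i, 0 < 1 - ∑ j, a i j * u j := fun i => by
    refine lt_of_le_of_ne (by linarith [huB i]) fun h => hu0.ne' ?_
    exact Finset.prod_eq_zero (Finset.mem_univ i) h.symm
  refine ⟨u, hpos, fun j => ?_⟩
  set G : ℝ → ℝ := fun t => ∑ i, Real.log ((1 - ∑ k, a i k * u k) - t * a i j) with hG
  have hd : HasDerivAt G (∑ i, -a i j / (1 - ∑ k, a i k * u k)) 0 := by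
    refine HasDerivAt.fun_sum fun i _ => ?_
    have h1 : HasDerivAt (fun t : ℝ => (1 - ∑ k, a i k * u k) - t * a i j) (-a i j) 0 := by
      simpa using ((hasDerivAt_id (0 : ℝ)).mul_const (a i j)).const_sub (1 - ∑ k, a i k * u k)
    simpa using h1.log (by simpa using (hpos i).ne')
  have hloc : IsLocalMax G 0 := by
    have hev : ∀ᶠ t in nhds (0 : ℝ), ∀ i, 0 < (1 - ∑ k, a i k * u k) - t * a i j :=
      Filter.eventually_all.2 fun i =>
        (continuous_const.sub (continuous_id.mul continuous_const)).continuousAt.eventually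
          (Ioi_mem_nhds (by simpa using hpos i))
    filter_upwards [hev] with t ht
    have key : ∀ i, 1 - ∑ k, a i k * (u + Pi.single j t : Fin n → ℝ) k =
        (1 - ∑ k, a i k * u k) - t * a i j := fun i => by
      simp [mul_add, Finset.sum_add_distrib, Pi.single_apply]
      ring
    have hmem : (u + Pi.single j t : Fin n → ℝ) ∈ B := fun i => by
      linarith [ht i, key i]
    have h2 : g (u + Pi.single j t) ≤ g u := hmax hmem
    simp only [hg, key] at h2
    simp only [hG, zero_mul, sub_zero]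
    rw [← Real.log_prod (fun i _ => (ht i).ne'), ← Real.log_prod (fun i _ => (hpos i).ne')]
    exact Real.log_le_log (Finset.prod_pos fun i _ => ht i) h2
  have h0 := hloc.hasDerivAt_eq_zero hd
  simpa [neg_div] using h0

lemma lintegral_image_mulVec {m : ℕ} (M : Matrix (Fin m) (Fin m) ℝ) (hM : M.det ≠ 0)
    {S : Set (Fin m → ℝ)} (hS : MeasurableSet S) (f : (Fin m → ℝ) → ℝ≥0∞) :
    ∫⁻ y in (fun x => M *ᵥ x) '' S, f y = ENNReal.ofReal |M.det| * ∫⁻ x in S, f (M *ᵥ x) := by
  have hL : ∀ x, HasFDerivWithinAt (fun x => M *ᵥ x)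
      (LinearMap.toContinuousLinearMap (Matrix.toLin' M)) S x := fun x =>
    (LinearMap.toContinuousLinearMap (Matrix.toLin' M)).hasFDerivWithinAt
  have hinj : InjOn (fun x => M *ᵥ x) S := by
    have := (Matrix.mulVec_injective_iff_isUnit).2
      ((Matrix.isUnit_iff_isUnit_det M).2 (isUnit_iff_ne_zero.2 hM))
    exact this.injOn
  rw [lintegral_image_eq_lintegral_abs_det_fderiv_mul volume hS (fun x _ => hL x) hinj f,
    ← lintegral_const_mul' _ _ ENNReal.ofReal_ne_top]
  simp [ContinuousLinearMap.det, LinearMap.det_toLin']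

lemma polar_mem_of_comb (a : Fin N → Fin n → ℝ) {t : Fin N → ℝ} (ht : ∀ i, 0 ≤ t i)
    (hts : ∑ i, t i = 1) :
    (fun j => ∑ i, t i * a i j) ∈ polarSet {x : Fin n → ℝ | ∀ i, ∑ j, a i j * x j ≤ 1} := by
  intro x hx
  calc ∑ j, (∑ i, t i * a i j) * x j = ∑ i, t i * ∑ j, a i j * x j := by
        simp only [Finset.sum_mul, Finset.mul_sum]
        rw [Finset.sum_comm]
        simp only [mul_assoc]
    _ ≤ ∑ i, t i := Finset.sum_le_sum fun i _ => mul_le_of_le_one_right (ht i) (hx i)
    _ = 1 := hts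

/-- The bound for a bounded polytope with the origin in its interior. -/
theorem core (hmass : MassLower) (hn : 0 < n) (a : Fin N → Fin n → ℝ)
    (hb : Bornology.IsBounded {x : Fin n → ℝ | ∀ i, ∑ j, a i j * x j ≤ 1}) :
    ENNReal.ofReal ((2 * Real.pi * Real.exp 1) ^ (-((N : ℝ) - (n + 1)) / 2) *
        (((n : ℝ) + 1) ^ (n + 1) / (n ! : ℝ) ^ 2)) ≤
      volume {x : Fin n → ℝ | ∀ i, ∑ j, a i j * x j ≤ 1} *
        volume (polarSet {x : Fin n → ℝ | ∀ i, ∑ j, a i j * x j ≤ 1}) := by
  classical
  set B := {x : Fin n → ℝ | ∀ i, ∑ j, a i j * x j ≤ 1} with hB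
  obtain ⟨hN, uc, hpos, hgrad⟩ := exists_centre hn a hb
  have hN' : (0 : ℝ) < N := by exact_mod_cast hN
  -- the lifted vectors and the weights
  set q : Fin N → Fin (n + 1) → ℝ := fun i => Fin.cons 1 fun j => -a i j with hq
  set sl : Fin N → ℝ := fun i => 1 - ∑ k, a i k * uc k with hsl
  set b : Fin N → ℝ := fun i => ((n : ℝ) + 1) / (N * sl i) with hbdef
  have hbpos : ∀ i, 0 < b i := fun i => by
    have := hpos i
    simp only [hbdef, hsl]
    positivity
  have hqx : ∀ i (x : Fin (n + 1) → ℝ), ∑ j, q i j * x j = x 0 - ∑ j, a i j * x j.succ := by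
    intro i x
    rw [Fin.sum_univ_succ]
    simp [hq, Finset.sum_neg_distrib, sub_eq_add_neg]
  have hgrad' : ∀ j, ∑ i, b i * a i j = 0 := fun j => by
    have e : ∀ i, b i * a i j = ((n : ℝ) + 1) / N * (a i j / sl i) := fun i => by
      simp only [hbdef]; field_simp
    simp only [e, ← Finset.mul_sum]
    rw [hgrad j, mul_zero]
  have hbsum : ∑ i, b i = (n : ℝ) + 1 := by
    have e : ∀ i, b i * sl i = ((n : ℝ) + 1) / N := fun i => by
      have := (hpos i).ne'
      simp only [hbdef, hsl]
      field_simp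
    have h1 : ∑ i, b i * sl i = ∑ i, b i := by
      simp only [hsl, mul_sub, mul_one, Finset.sum_sub_distrib, Finset.mul_sum]
      rw [Finset.sum_comm]
      simp only [← mul_assoc, ← Finset.sum_mul, hgrad']
      simp
    rw [← h1]
    simp [e]
    field_simp
  have hfun : ∀ x : Fin (n + 1) → ℝ, ∑ i, b i * ∑ j, q i j * x j = ((n : ℝ) + 1) * x 0 := by
    intro x
    simp only [hqx, mul_sub, Finset.sum_sub_distrib, ← Finset.sum_mul, hbsum, Finset.mul_sum]
    rw [Finset.sum_comm]
    simp only [← mul_assoc, ← Finset.sum_mul, hgrad']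
    simp
  -- nonnegativity forces a positive height
  have hheight : ∀ x : Fin (n + 1) → ℝ, (∀ i, 0 ≤ ∑ j, q i j * x j) →
      x = 0 ∨ x ∈ coneOver B := by
    intro x hx
    rcases le_or_gt (x 0) 0 with h | h
    · left
      obtain ⟨C, hC⟩ := hb.exists_norm_le
      set y : Fin n → ℝ := fun j => x j.succ with hy
      have hray : ∀ t : ℝ, 0 ≤ t → t • y ∈ B := fun t ht i => by
        have h2 : ∑ j, a i j * (t • y) j = t * ∑ j, a i j * x j.succ := by
          simp [hy, Finset.mul_sum, mul_left_comm]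
        have h3 := hx i
        rw [hqx] at h3
        rw [h2]
        nlinarith
      have hy0 : y = 0 := by
        by_contra h0
        have h1 := hC _ (hray ((|C| + 1) / ‖y‖) (by positivity))
        rw [norm_smul, Real.norm_of_nonneg (by positivity),
          div_mul_cancel₀ _ (norm_ne_zero_iff.2 h0)] at h1
        linarith [le_abs_self C]
      have hy' : ∀ j : Fin n, x j.succ = 0 := fun j => congrFun hy0 j
      have hx0 : x 0 = 0 := by
        have h3 := hx ⟨0, hN⟩
        rw [hqx] at h3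
        simp [hy'] at h3
        linarith
      funext j
      exact Fin.cases hx0 hy' j
    · right
      refine ⟨h, fun i => ?_⟩
      have h3 := hx i
      rw [hqx] at h3
      have e : ∑ j, a i j * ((x 0)⁻¹ * x j.succ) = (x 0)⁻¹ * ∑ j, a i j * x j.succ := by
        simp [Finset.mul_sum, mul_left_comm]
      rw [e, inv_mul_le_one₀ h]
      linarith
  -- the first frame
  obtain ⟨M, hM, hu⟩ := exists_frame (fun i => √(b i) • q i) fun x hx => by
    have hx' : ∀ i, ∑ j, q i j * x j = 0 := fun i => by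
      have h := hx i
      simp only [Pi.smul_apply, smul_eq_mul, mul_assoc, ← Finset.mul_sum] at h
      exact (mul_eq_zero.1 h).resolve_left (Real.sqrt_pos.2 (hbpos i)).ne'
    rcases hheight x fun i => (hx' i).ge with h | h
    · exact h
    · exfalso
      have := hfun x
      simp [hx'] at this
      rcases this with h' | h'
      · linarith
      · exact h.1.ne' h'
  set u : Fin N → Fin (n + 1) → ℝ := fun i => M *ᵥ (√(b i) • q i) with hudef
  set e : Fin (n + 1) → ℝ := Pi.single 0 1 ᵥ* M⁻¹ with hedef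
  have hMu : IsUnit M.det := isUnit_iff_ne_zero.2 hM
  have heM : ∀ w : Fin (n + 1) → ℝ, ∑ j, e j * (M *ᵥ w) j = w 0 := fun w => by
    change e ⬝ᵥ (M *ᵥ w) = w 0
    rw [Matrix.dotProduct_mulVec, hedef, Matrix.vecMul_vecMul, Matrix.nonsing_inv_mul _ hMu,
      Matrix.vecMul_one, single_dotProduct, one_mul]
  have he : ∀ i, ∑ j, u i j * e j = √(b i) := fun i => by
    have h := heM (√(b i) • q i)
    simp only [hudef]
    rw [Finset.sum_congr rfl fun j _ => mul_comm _ (e j), h]
    simp [hq]
  have hJ := cone_ge_one hu hbpos (by rw [hbsum]; push_cast; ring) e he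
  -- the dual side
  set P := polarSet B with hP
  have hPcl : IsClosed P := by
    have e' : P = ⋂ z ∈ B, {y : Fin n → ℝ | ∑ j, y j * z j ≤ 1} := by ext y; simp [hP, polarSet]
    rw [e']
    exact isClosed_biInter fun z _ => isClosed_le (by fun_prop) continuous_const
  have hPm : MeasurableSet (Neg.neg ⁻¹' P) := hPcl.measurableSet.preimage measurable_neg
  have hJ' : (1 : ℝ≥0∞) ≤ ENNReal.ofReal |M.det| * (ENNReal.ofReal (n ! : ℝ) * volume P) := by
    refine hJ.trans ?_
    set T := coneOver (Neg.neg ⁻¹' P) ∪ {(0 : Fin (n + 1) → ℝ)} with hT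
    have hsub : cone u ⊆ (fun x => M *ᵥ x) '' T := by
      rintro y ⟨t, ht, rfl⟩
      refine ⟨∑ i, (t i * √(b i)) • q i, ?_, ?_⟩
      · set s := ∑ i, t i * √(b i) with hs
        have hc : ∀ i, 0 ≤ t i * √(b i) := fun i => mul_nonneg (ht i) (Real.sqrt_nonneg _)
        rcases (Finset.sum_nonneg fun i _ => hc i : (0 : ℝ) ≤ s).eq_or_lt with h0 | h0
        · right
          have hz := (Finset.sum_eq_zero_iff_of_nonneg fun i _ => hc i).1 h0.symm
          simp only [mem_singleton_iff]
          exact Finset.sum_eq_zero fun i hi => by rw [hz i hi, zero_smul]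
        · left
          have h00 : (∑ i, (t i * √(b i)) • q i) 0 = s := by simp [hq, hs]
          refine ⟨h00 ▸ h0, ?_⟩
          rw [h00, mem_preimage]
          have hmem := polar_mem_of_comb a (t := fun i => s⁻¹ * (t i * √(b i)))
            (fun i => mul_nonneg (inv_nonneg.2 h0.le) (hc i))
            (by rw [← Finset.mul_sum, ← hs, inv_mul_cancel₀ h0.ne'])
          convert hmem using 1
          funext j
          simp [hq, Finset.mul_sum, mul_assoc]
      · change M *ᵥ _ = _
        rw [Matrix.mulVec_sum]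
        refine Finset.sum_congr rfl fun i _ => ?_
        simp [hudef, Matrix.mulVec_smul, smul_smul]
    refine (lintegral_mono_set hsub).trans ?_
    have hTm : MeasurableSet T := (measurableSet_coneOver hPm).union (measurableSet_singleton 0)
    rw [lintegral_image_mulVec M hM hTm]
    refine mul_le_mul' le_rfl ?_
    have hae : T =ᵐ[volume] coneOver (Neg.neg ⁻¹' P) :=
      union_ae_eq_left_of_ae_eq_empty (ae_eq_empty.2 (measure_singleton _))
    rw [setLIntegral_congr hae]
    simp only [heM]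
    refine le_of_eq ?_
    have hci := coneOver_integral hPm one_pos
    simp only [one_mul, one_pow, div_one] at hci
    rw [hci, Measure.measure_preimage_neg]
  -- the second frame
  have hr : ∀ x : Fin (n + 1) → ℝ, (∀ i, ∑ j, (√(b i) • u i) j * x j = 0) → x = 0 := fun x hx => by
    funext j
    rw [← frame_apply hu x j]
    refine Finset.sum_eq_zero fun i _ => ?_
    have h := hx i
    simp only [Pi.smul_apply, smul_eq_mul, mul_assoc, ← Finset.mul_sum] at h
    rw [(mul_eq_zero.1 h).resolve_left (Real.sqrt_pos.2 (hbpos i)).ne', mul_zero]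
  obtain ⟨L, hL, hv⟩ := exists_frame (fun i => √(b i) • u i) hr
  set Q := L * M with hQ
  set v : Fin N → Fin (n + 1) → ℝ := fun i => L *ᵥ (√(b i) • u i) with hvdef
  have hQd : Qᵀ.det ≠ 0 := by
    rw [Matrix.det_transpose, hQ, Matrix.det_mul]; exact mul_ne_zero hL hM
  have hvq : ∀ i (x : Fin (n + 1) → ℝ), ∑ j, v i j * x j = b i * ∑ j, q i j * (Qᵀ *ᵥ x) j := by
    intro i x
    have e1 : v i = Q *ᵥ (b i • q i) := by
      simp only [hvdef, hudef, hQ, Matrix.mulVec_smul, smul_smul, Matrix.mulVec_mulVec,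
        Real.mul_self_sqrt (hbpos i).le]
    change v i ⬝ᵥ x = b i * (q i ⬝ᵥ (Qᵀ *ᵥ x))
    rw [e1, Matrix.dotProduct_mulVec, Matrix.vecMul_transpose, Matrix.mulVec_smul, smul_dotProduct,
      smul_eq_mul]
  obtain ⟨x0, hx0⟩ : ∃ x0 : Fin (n + 1) → ℝ, ∀ i, ∑ j, v i j * x0 j = 1 := by
    refine ⟨Qᵀ⁻¹ *ᵥ (((N : ℝ) / (n + 1)) • (Fin.cons 1 uc)), fun i => ?_⟩
    rw [hvq, Matrix.mulVec_mulVec, Matrix.mul_nonsing_inv _ (isUnit_iff_ne_zero.2 hQd),
      Matrix.one_mulVec, hqx]
    have := (hpos i).ne'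
    simp only [hbdef, Pi.smul_apply, Fin.cons_zero, Fin.cons_succ, smul_eq_mul]
    rw [show ∀ c : ℝ, ∑ j, a i j * (c * uc j) = c * ∑ j, a i j * uc j from fun c => by
      simp [Finset.mul_sum, mul_left_comm]]
    rw [hsl]
    field_simp
  have hI := hmass v hv x0 hx0
  set D := {x : Fin (n + 1) → ℝ | ∀ i, 0 ≤ ∑ j, v i j * x j} with hD
  have hDm : MeasurableSet D := by
    simp only [hD, setOf_forall]
    exact MeasurableSet.iInter fun i => measurableSet_le measurable_const (by fun_prop)
  have hBm : MeasurableSet B := by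
    simp only [hB, setOf_forall]
    exact MeasurableSet.iInter fun i => measurableSet_le (by fun_prop) measurable_const
  have hI' : ENNReal.ofReal |Qᵀ.det| *
      ENNReal.ofReal ((2 * Real.pi * Real.exp 1) ^ (-((N : ℝ) - (n + 1)) / 2)) ≤
      ENNReal.ofReal ((n ! : ℝ) / ((n : ℝ) + 1) ^ (n + 1)) * volume B := by
    refine le_trans (mul_le_mul' le_rfl (by push_cast at hI; exact hI)) ?_
    have hfun' : ∀ x : Fin (n + 1) → ℝ,
        ∑ i, ∑ j, v i j * x j = ((n : ℝ) + 1) * (Qᵀ *ᵥ x) 0 := fun x => by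
      simp only [hvq, hfun]
    simp only [hfun']
    rw [← lintegral_image_mulVec Qᵀ hQd hDm
      (fun x => ENNReal.ofReal (Real.exp (-(((n : ℝ) + 1) * x 0))))]
    have hsub : (fun x => Qᵀ *ᵥ x) '' D ⊆ coneOver B ∪ {0} := by
      rintro _ ⟨x, hx, rfl⟩
      rcases hheight (Qᵀ *ᵥ x) fun i => by
        have h := hx i
        rw [hvq] at h
        exact nonneg_of_mul_nonneg_right h (hbpos i) with h | h
      · exact Or.inr h
      · exact Or.inl h
    refine (lintegral_mono_set hsub).trans (le_of_eq ?_)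
    have hae : (coneOver B ∪ {(0 : Fin (n + 1) → ℝ)} : Set (Fin (n + 1) → ℝ)) =ᵐ[volume] coneOver B :=
      union_ae_eq_left_of_ae_eq_empty (ae_eq_empty.2 (measure_singleton _))
    rw [setLIntegral_congr hae, coneOver_integral hBm (by positivity)]
  -- comparing the two changes of variables
  have hdet : |M.det| ≤ |Qᵀ.det| := by
    rw [Matrix.det_transpose, hQ, Matrix.det_mul, abs_mul]
    refine le_mul_of_one_le_left (abs_nonneg _) ?_
    set G := ∑ i, b i • vecMulVec (u i) (u i) with hG
    have hG1 : G.det ≤ 1 :=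
      det_weighted_le hu (fun i => (hbpos i).le) (by rw [hbsum]; push_cast; ring)
    have hLG : L * G * Lᵀ = 1 := by
      have e1 : ∀ i, L * (b i • vecMulVec (u i) (u i)) * Lᵀ = vecMulVec (v i) (v i) := fun i => by
        rw [Matrix.mul_smul, Matrix.smul_mul, Matrix.mul_vecMulVec, Matrix.vecMulVec_mul,
          Matrix.vecMul_transpose]
        simp only [hvdef, Matrix.mulVec_smul]
        ext j k
        simp [vecMulVec, mul_mul_mul_comm, Real.mul_self_sqrt (hbpos i).le]
      simp only [hG, Matrix.mul_sum, Matrix.sum_mul, e1]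
      ext j k
      simp only [Matrix.sum_apply, vecMulVec_apply, Matrix.one_apply]
      exact hv j k
    have h1 := congrArg Matrix.det hLG
    rw [Matrix.det_mul, Matrix.det_mul, Matrix.det_transpose, Matrix.det_one] at h1
    by_contra h2
    push Not at h2
    have h3 : L.det * L.det < 1 := by
      nlinarith [abs_nonneg L.det, sq_abs L.det]
    nlinarith [mul_self_pos.2 hL]
  set c := (2 * Real.pi * Real.exp 1) ^ (-((N : ℝ) - (n + 1)) / 2) with hc
  have hc0 : 0 ≤ c := by positivity
  have hfac : (0 : ℝ) < (n ! : ℝ) := by exact_mod_cast n.factorial_pos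
  have h5 : ENNReal.ofReal |M.det| * ENNReal.ofReal c ≤ ENNReal.ofReal |M.det| *
      (ENNReal.ofReal ((n ! : ℝ) ^ 2 / ((n : ℝ) + 1) ^ (n + 1)) * (volume B * volume P)) := by
    calc ENNReal.ofReal |M.det| * ENNReal.ofReal c
        ≤ ENNReal.ofReal |Qᵀ.det| * ENNReal.ofReal c * 1 := by
          rw [mul_one]; exact mul_le_mul' (ENNReal.ofReal_le_ofReal hdet) le_rfl
      _ ≤ (ENNReal.ofReal ((n ! : ℝ) / ((n : ℝ) + 1) ^ (n + 1)) * volume B) *
            (ENNReal.ofReal |M.det| * (ENNReal.ofReal (n ! : ℝ) * volume P)) :=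
          mul_le_mul' hI' hJ'
      _ = _ := by
          rw [show (n ! : ℝ) ^ 2 / ((n : ℝ) + 1) ^ (n + 1) =
              (n ! : ℝ) / ((n : ℝ) + 1) ^ (n + 1) * (n ! : ℝ) by ring,
            ENNReal.ofReal_mul (by positivity)]
          ring
  rw [ENNReal.mul_le_mul_iff_right (by simpa using hM) ENNReal.ofReal_ne_top] at h5
  calc ENNReal.ofReal (c * (((n : ℝ) + 1) ^ (n + 1) / (n ! : ℝ) ^ 2))
      = ENNReal.ofReal (((n : ℝ) + 1) ^ (n + 1) / (n ! : ℝ) ^ 2) * ENNReal.ofReal c := by
        rw [← ENNReal.ofReal_mul (by positivity), mul_comm]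
    _ ≤ ENNReal.ofReal (((n : ℝ) + 1) ^ (n + 1) / (n ! : ℝ) ^ 2) *
          (ENNReal.ofReal ((n ! : ℝ) ^ 2 / ((n : ℝ) + 1) ^ (n + 1)) * (volume B * volume P)) :=
        mul_le_mul' le_rfl h5
    _ = volume B * volume P := by
        rw [← mul_assoc, ← ENNReal.ofReal_mul (by positivity),
          div_mul_div_cancel₀ (by positivity), div_self (by positivity), ENNReal.ofReal_one, one_mul]

end Vale.Agent.P248.FewVertices
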