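import Vale.Agent.P248.FewFacets.Transport

/-!
P248, few vertices: the exponential integral over the cone spanned by a frame is at least one,
by transport of the Gaussian density `exp (-π t²)` to the exponential density on the half line.
-/

noncomputable section

open MeasureTheory Set Matrix
open scoped ENNReal

namespace Vale.Agent.P248.FewVertices

open Vale.Agent.P248.FewFacets (gG gG_hasDerivAt gG_lt det_frame_ge)

/-- The transport to the exponential density. -/
def eF (t : ℝ) : ℝ := -Real.log (1 / 2 - gG t)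

/-- Its derivative. -/
def eF' (t : ℝ) : ℝ := Real.exp (-(Real.pi * t ^ 2)) / (1 / 2 - gG t)

lemma eF'_pos (t : ℝ) : 0 < eF' t := div_pos (Real.exp_pos _) (by linarith [gG_lt t])

lemma eF_hasDerivAt (t : ℝ) : HasDerivAt eF (eF' t) t := by
  have h : (1 / 2 - gG t) ≠ 0 := by linarith [gG_lt t]
  exact (((gG_hasDerivAt t).const_sub (1 / 2)).log h).neg.congr_deriv (by
    rw [eF', neg_div, neg_neg])

lemma eF_strictMono : StrictMono eF := by
  refine strictMono_of_deriv_pos fun t => ?_
  rw [(eF_hasDerivAt t).deriv]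
  exact eF'_pos t

lemma eF_identity (t : ℝ) : eF' t * Real.exp (-eF t) = Real.exp (-(Real.pi * t ^ 2)) := by
  have h : 0 < 1 / 2 - gG t := by linarith [gG_lt t]
  rw [eF, neg_neg, Real.exp_log h, eF', div_mul_cancel₀ _ h.ne']

lemma eF_nonneg (t : ℝ) : 0 ≤ eF t := by
  have h : 0 < 1 / 2 - gG t := by linarith [gG_lt t]
  refine neg_nonneg.2 (Real.log_nonpos h.le ?_)
  have h1 := gG_lt (-t)
  rw [Vale.Agent.P248.FewFacets.gG_neg] at h1
  linarith

variable {m N : ℕ}

/-- The squared length of the `i`th vector. -/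
def wgt (u : Fin N → Fin m → ℝ) (i : Fin N) : ℝ := ∑ j, u i j ^ 2

/-- The normalised coordinate along the `i`th vector. -/
def crd (u : Fin N → Fin m → ℝ) (i : Fin N) (x : Fin m → ℝ) : ℝ :=
  (∑ j, u i j * x j) / √(wgt u i)

/-- The frame property. -/
def Frame (u : Fin N → Fin m → ℝ) : Prop :=
  ∀ j k, ∑ i, u i j * u i k = if j = k then 1 else 0

variable {u : Fin N → Fin m → ℝ} {b : Fin N → ℝ}

lemma wgt_nonneg (u : Fin N → Fin m → ℝ) (i : Fin N) : 0 ≤ wgt u i :=
  Finset.sum_nonneg fun j _ => sq_nonneg _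

lemma frame_apply (hu : Frame u) (x : Fin m → ℝ) (j : Fin m) :
    ∑ i, u i j * ∑ k, u i k * x k = x j := by
  calc ∑ i, u i j * ∑ k, u i k * x k = ∑ k, (∑ i, u i j * u i k) * x k := by
        simp only [Finset.mul_sum, Finset.sum_mul]
        rw [Finset.sum_comm]
        exact Finset.sum_congr rfl fun k _ => Finset.sum_congr rfl fun i _ => by ring
    _ = x j := by simp [hu j]

lemma frame_sq (hu : Frame u) (x : Fin m → ℝ) :
    ∑ i, (∑ j, u i j * x j) ^ 2 = ∑ j, x j ^ 2 := by
  calc ∑ i, (∑ j, u i j * x j) ^ 2 = ∑ i, ∑ j, x j * (u i j * ∑ k, u i k * x k) :=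
        Finset.sum_congr rfl fun i _ => by
          rw [sq, Finset.sum_mul]
          exact Finset.sum_congr rfl fun j _ => by ring
    _ = ∑ j, x j ^ 2 := by
        rw [Finset.sum_comm]
        simp only [← Finset.mul_sum, frame_apply hu, ← sq]

lemma wgt_sum (hu : Frame u) : ∑ i, wgt u i = m := by
  simp only [wgt, sq]
  rw [Finset.sum_comm]
  simp [hu _ _]

lemma mul_crd (u : Fin N → Fin m → ℝ) (i : Fin N) (x : Fin m → ℝ) :
    √(wgt u i) * crd u i x = ∑ j, u i j * x j := by
  rcases (wgt_nonneg u i).eq_or_lt with h | h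
  · have hz : ∀ j, u i j = 0 := fun j => by
      simpa using (Finset.sum_eq_zero_iff_of_nonneg fun j _ => sq_nonneg (u i j)).1 h.symm j
        (Finset.mem_univ j)
    simp [← h, hz]
  · rw [crd, mul_comm, div_mul_cancel₀ _ (Real.sqrt_pos.2 h).ne']

/-- The transport into the cone. -/
def phi (u : Fin N → Fin m → ℝ) (b : Fin N → ℝ) (x : Fin m → ℝ) : Fin m → ℝ :=
  ∑ i, (wgt u i / √(b i) * eF (crd u i x)) • u i

/-- The derivative of the transport. -/
def dphi (u : Fin N → Fin m → ℝ) (b : Fin N → ℝ) (x : Fin m → ℝ) :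
    (Fin m → ℝ) →L[ℝ] (Fin m → ℝ) :=
  LinearMap.toContinuousLinearMap (Matrix.toLin'
    (∑ i, (√(wgt u i) / √(b i) * eF' (crd u i x)) • vecMulVec (u i) (u i)))

lemma phi_hasFDerivAt (u : Fin N → Fin m → ℝ) (b : Fin N → ℝ) (x : Fin m → ℝ) :
    HasFDerivAt (phi u b) (dphi u b x) x := by
  have hc : ∀ i, HasFDerivAt (fun z => crd u i z)
      ((√(wgt u i))⁻¹ • ∑ j, u i j • (ContinuousLinearMap.proj j : (Fin m → ℝ) →L[ℝ] ℝ)) x := by
    intro i
    have h := (HasFDerivAt.fun_sum (u := Finset.univ) fun j (_ : j ∈ Finset.univ) =>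
      (hasFDerivAt_apply (𝕜 := ℝ) j x).const_mul (u i j)).const_mul (√(wgt u i))⁻¹
    simpa [crd, div_eq_inv_mul] using h
  have hi : ∀ i, HasFDerivAt (fun z => (wgt u i / √(b i) * eF (crd u i z)) • u i)
      (((wgt u i / √(b i)) • (eF' (crd u i x) • ((√(wgt u i))⁻¹ •
        ∑ j, u i j • (ContinuousLinearMap.proj j : (Fin m → ℝ) →L[ℝ] ℝ)))).smulRight (u i)) x :=
    fun i => (((eF_hasDerivAt _).comp_hasFDerivAt x (hc i)).const_mul _).smul_const (u i)
  refine (HasFDerivAt.fun_sum (u := Finset.univ) fun i _ => hi i).congr_fderiv ?_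
  ext1 z
  simp only [dphi, ContinuousLinearMap.sum_apply, ContinuousLinearMap.smulRight_apply,
    ContinuousLinearMap.smul_apply, ContinuousLinearMap.proj_apply, smul_eq_mul,
    LinearMap.coe_toContinuousLinearMap', Matrix.toLin'_apply, Matrix.sum_mulVec,
    Matrix.smul_mulVec, Matrix.vecMulVec_mulVec, op_smul_eq_smul, smul_smul]
  refine Finset.sum_congr rfl fun i _ => ?_
  congr 1
  have : wgt u i / √(b i) * (√(wgt u i))⁻¹ = √(wgt u i) / √(b i) := by
    rw [div_mul_eq_mul_div, ← div_eq_mul_inv, Real.div_sqrt]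
  rw [show u i ⬝ᵥ z = ∑ j, u i j * z j from rfl]
  linear_combination (eF' (crd u i x) * ∑ j, u i j * z j) * this

lemma phi_injective (hu : Frame u) (hb : ∀ i, 0 < b i) : Function.Injective (phi u b) := by
  intro x z h
  have h1 : ∑ i, wgt u i / √(b i) * ((eF (crd u i x) - eF (crd u i z)) *
      (√(wgt u i) * (crd u i x - crd u i z))) = 0 := by
    have h2 : ∑ j, (phi u b x j - phi u b z j) * (x j - z j) = 0 := by simp [h]
    simp only [phi, Finset.sum_apply, Pi.smul_apply, smul_eq_mul, ← Finset.sum_sub_distrib,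
      Finset.sum_mul] at h2
    rw [Finset.sum_comm] at h2
    refine Eq.trans (Finset.sum_congr rfl fun i _ => ?_) h2
    rw [mul_sub (√(wgt u i)), mul_crd, mul_crd, ← Finset.sum_sub_distrib, Finset.mul_sum,
      Finset.mul_sum]
    exact Finset.sum_congr rfl fun j _ => by ring
  have hnn : ∀ i ∈ (Finset.univ : Finset (Fin N)), 0 ≤ wgt u i / √(b i) *
      ((eF (crd u i x) - eF (crd u i z)) * (√(wgt u i) * (crd u i x - crd u i z))) := by
    intro i _
    refine mul_nonneg (div_nonneg (wgt_nonneg u i) (Real.sqrt_nonneg _)) ?_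
    rw [mul_left_comm]
    refine mul_nonneg (Real.sqrt_nonneg _) ?_
    rcases le_total (crd u i x) (crd u i z) with hle | hle
    · exact mul_nonneg_of_nonpos_of_nonpos (sub_nonpos.2 (eF_strictMono.monotone hle))
        (sub_nonpos.2 hle)
    · exact mul_nonneg (sub_nonneg.2 (eF_strictMono.monotone hle)) (sub_nonneg.2 hle)
  have hzero : ∀ i, ∑ j, u i j * x j = ∑ j, u i j * z j := fun i => by
    have h3 := (Finset.sum_eq_zero_iff_of_nonneg hnn).1 h1 i (Finset.mem_univ i)
    rw [← mul_crd, ← mul_crd]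
    rcases (wgt_nonneg u i).eq_or_lt with hw | hw
    · simp [← hw]
    congr 1
    rcases mul_eq_zero.1 h3 with h4 | h4
    · exact absurd h4 (div_pos hw (Real.sqrt_pos.2 (hb i))).ne'
    rcases mul_eq_zero.1 h4 with h5 | h5
    · exact eF_strictMono.injective (sub_eq_zero.1 h5)
    · exact sub_eq_zero.1 ((mul_eq_zero.1 h5).resolve_left (Real.sqrt_pos.2 hw).ne')
  funext j
  rw [← frame_apply hu x j, ← frame_apply hu z j]
  simp [hzero]

/-- Gibbs' inequality for the weights. -/
lemma gibbs (hu : Frame u) (hb : ∀ i, 0 < b i) (hsum : ∑ i, b i = m) :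
    1 ≤ ∏ i, (√(wgt u i) / √(b i)) ^ wgt u i := by
  have e : (0 : ℝ) = ∑ i, (wgt u i - b i) / 2 := by
    rw [← Finset.sum_div, Finset.sum_sub_distrib, wgt_sum hu, hsum, sub_self, zero_div]
  rw [← Real.exp_zero, e, Real.exp_sum]
  refine Finset.prod_le_prod (fun i _ => (Real.exp_pos _).le) fun i _ => ?_
  rcases (wgt_nonneg u i).eq_or_lt with h | h
  · rw [← h, Real.rpow_zero]
    exact Real.exp_le_one_iff.2 (by linarith [hb i])
  · rw [← Real.sqrt_div h.le, Real.rpow_def_of_pos (Real.sqrt_pos.2 (div_pos h (hb i))),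
      Real.log_sqrt (div_pos h (hb i)).le]
    refine Real.exp_le_exp.2 ?_
    have h1 := Real.one_sub_inv_le_log_of_pos (div_pos h (hb i))
    have h2 := mul_le_mul_of_nonneg_left h1 h.le
    have h3 : wgt u i * (1 - (wgt u i / b i)⁻¹) = wgt u i - b i := by
      rw [inv_div, mul_sub, mul_one, mul_div_cancel₀ _ h.ne']
    linarith

/-- The cone of nonnegative combinations. -/
def cone (u : Fin N → Fin m → ℝ) : Set (Fin m → ℝ) :=
  {y | ∃ t : Fin N → ℝ, (∀ i, 0 ≤ t i) ∧ y = ∑ i, t i • u i}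

/-- The exponential integral over the cone of a frame is at least one. -/
theorem cone_ge_one (hu : Frame u) (hb : ∀ i, 0 < b i) (hsum : ∑ i, b i = m) (e : Fin m → ℝ)
    (he : ∀ i, ∑ j, u i j * e j = √(b i)) :
    1 ≤ ∫⁻ y in cone u, ENNReal.ofReal (Real.exp (-∑ j, e j * y j)) := by
  set f : (Fin m → ℝ) → ℝ≥0∞ := fun y => ENNReal.ofReal (Real.exp (-∑ j, e j * y j)) with hf
  have hcv := lintegral_image_eq_lintegral_abs_det_fderiv_mul (volume : Measure (Fin m → ℝ))
    MeasurableSet.univ (fun x _ => (phi_hasFDerivAt u b x).hasFDerivWithinAt)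
    (phi_injective hu hb).injOn f
  have hsub : phi u b '' univ ⊆ cone u := by
    rintro _ ⟨x, -, rfl⟩
    exact ⟨fun i => wgt u i / √(b i) * eF (crd u i x),
      fun i => mul_nonneg (div_nonneg (wgt_nonneg u i) (Real.sqrt_nonneg _)) (eF_nonneg _), rfl⟩
  have hval : ∀ x, ∑ j, e j * phi u b x j = ∑ i, wgt u i * eF (crd u i x) := by
    intro x
    simp only [phi, Finset.sum_apply, Pi.smul_apply, smul_eq_mul, Finset.mul_sum]
    rw [Finset.sum_comm]
    refine Finset.sum_congr rfl fun i _ => ?_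
    calc ∑ j, e j * (wgt u i / √(b i) * eF (crd u i x) * u i j)
        = wgt u i / √(b i) * eF (crd u i x) * ∑ j, u i j * e j := by
          rw [Finset.mul_sum]
          exact Finset.sum_congr rfl fun j _ => by ring
      _ = wgt u i * eF (crd u i x) := by
          rw [he]
          field_simp [(Real.sqrt_pos.2 (hb i)).ne']
  have hprod : ∀ x, ENNReal.ofReal (Real.exp (-(Real.pi * ∑ j, x j ^ 2))) ≤
      ENNReal.ofReal |(dphi u b x).det| * f (phi u b x) := by
    intro x
    simp only [hf]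
    rw [← ENNReal.ofReal_mul (abs_nonneg _)]
    refine ENNReal.ofReal_le_ofReal ?_
    rw [hval]
    set W : Fin N → ℝ := fun i => √(wgt u i) / √(b i) * eF' (crd u i x) with hW
    have hW0 : ∀ i, 0 ≤ W i := fun i =>
      mul_nonneg (div_nonneg (Real.sqrt_nonneg _) (Real.sqrt_nonneg _)) (eF'_pos _).le
    have hdet : ∏ i, W i ^ wgt u i ≤ |(dphi u b x).det| := by
      refine le_trans ?_ (le_abs_self _)
      simp only [dphi, ContinuousLinearMap.det, LinearMap.coe_toContinuousLinearMap,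
        LinearMap.det_toLin']
      exact det_frame_ge u hu W hW0
    refine le_trans ?_ (mul_le_mul_of_nonneg_right hdet (Real.exp_pos _).le)
    rw [← Finset.sum_neg_distrib, Real.exp_sum, ← Finset.prod_mul_distrib]
    have h3 : Real.exp (-(Real.pi * ∑ j, x j ^ 2)) =
        ∏ i, Real.exp (-(Real.pi * crd u i x ^ 2)) ^ wgt u i := by
      rw [← frame_sq hu x, Finset.mul_sum, ← Finset.sum_neg_distrib, Real.exp_sum]
      refine Finset.prod_congr rfl fun i _ => ?_
      rw [← Real.exp_mul, ← mul_crd, mul_pow, Real.sq_sqrt (wgt_nonneg u i)]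
      ring_nf
    have h4 : ∀ i, W i ^ wgt u i * Real.exp (-(wgt u i * eF (crd u i x))) =
        (√(wgt u i) / √(b i)) ^ wgt u i * Real.exp (-(Real.pi * crd u i x ^ 2)) ^ wgt u i := by
      intro i
      rw [show Real.exp (-(wgt u i * eF (crd u i x))) = Real.exp (-eF (crd u i x)) ^ wgt u i by
        rw [← Real.exp_mul]; ring_nf]
      rw [← Real.mul_rpow (hW0 i) (Real.exp_pos _).le, hW, mul_assoc, eF_identity,
        Real.mul_rpow (div_nonneg (Real.sqrt_nonneg _) (Real.sqrt_nonneg _)) (Real.exp_pos _).le]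
    simp only [h4]
    rw [Finset.prod_mul_distrib, h3]
    exact le_mul_of_one_le_left (Finset.prod_nonneg fun i _ =>
      Real.rpow_nonneg (Real.exp_pos _).le _) (gibbs hu hb hsum)
  have hgauss : Integrable (fun x : Fin m → ℝ => Real.exp (-(Real.pi * ∑ j, x j ^ 2))) ∧
      ∫ x : Fin m → ℝ, Real.exp (-(Real.pi * ∑ j, x j ^ 2)) = 1 := by
    have e : ∀ y : Fin m → ℝ,
        Real.exp (-(Real.pi * ∑ j, y j ^ 2)) = ∏ j, Real.exp (-Real.pi * y j ^ 2) := fun y => by
      rw [← Real.exp_sum, ← Finset.mul_sum, neg_mul]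
    simp only [e]
    refine ⟨?_, ?_⟩
    · rw [volume_pi]
      exact Integrable.fintype_prod fun _ => integrable_exp_neg_mul_sq Real.pi_pos
    · rw [integral_fintype_prod_volume_eq_pow (fun t : ℝ => Real.exp (-Real.pi * t ^ 2)),
        integral_gaussian, div_self Real.pi_pos.ne', Real.sqrt_one, one_pow]
  refine le_trans ?_ (lintegral_mono_set hsub)
  rw [hcv, Measure.restrict_univ]
  refine le_trans (Eq.le ?_) (lintegral_mono hprod)
  rw [← ofReal_integral_eq_lintegral_ofReal hgauss.1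
    (Filter.Eventually.of_forall fun x => (Real.exp_pos _).le), hgauss.2, ENNReal.ofReal_one]

end Vale.Agent.P248.FewVertices
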