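import Vale.Agent.P248.FewVertices.Dual

/-!
P248, few vertices: linear normalisation of a spanning family to a frame, and the determinant of a
weighted frame.
-/

noncomputable section

open MeasureTheory Set Matrix

namespace Vale.Agent.P248.FewVertices

variable {m N : ℕ}

/-- A spanning family becomes a frame after a linear change of variables. -/
lemma exists_frame (r : Fin N → Fin m → ℝ)
    (hr : ∀ x : Fin m → ℝ, (∀ i, ∑ j, r i j * x j = 0) → x = 0) :
    ∃ M : Matrix (Fin m) (Fin m) ℝ, M.det ≠ 0 ∧ Frame fun i => M *ᵥ r i := by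
  classical
  set R : Matrix (Fin N) (Fin m) ℝ := Matrix.of r with hR
  set G := Rᵀ * R with hG
  have hGp : G.PosDef := by
    refine Matrix.PosDef.of_dotProduct_mulVec_pos (by simp [hG, Matrix.IsHermitian]) fun x hx => ?_
    have e : star x ⬝ᵥ (G *ᵥ x) = ∑ i, (R *ᵥ x) i ^ 2 := by
      rw [star_trivial, hG, ← Matrix.mulVec_mulVec, Matrix.dotProduct_mulVec,
        Matrix.vecMul_transpose]
      simp [dotProduct, sq]
    rw [e]
    refine lt_of_le_of_ne (Finset.sum_nonneg fun i _ => sq_nonneg _) fun h => hx (hr x fun i => ?_)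
    simpa [hR, Matrix.mulVec, dotProduct] using
      (Finset.sum_eq_zero_iff_of_nonneg fun i _ => sq_nonneg _).1 h.symm i (Finset.mem_univ i)
  set U : Matrix (Fin m) (Fin m) ℝ := (hGp.1.eigenvectorUnitary : Matrix (Fin m) (Fin m) ℝ) with hU
  set l := hGp.1.eigenvalues with hl
  have hlpos : ∀ k, 0 < l k := hGp.eigenvalues_pos
  have hdiag : Uᵀ * G * U = diagonal l := by
    have h1 := hGp.1.conjStarAlgAut_star_eigenvectorUnitary
    rw [Unitary.conjStarAlgAut_star_apply] at h1
    simpa [hU, hl, star_eq_conjTranspose] using h1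
  set T := U * diagonal fun k => 1 / √(l k) with hT
  have hTT : Tᵀ * G * T = 1 := by
    rw [hT, Matrix.transpose_mul, Matrix.diagonal_transpose,
      show ∀ D : Matrix (Fin m) (Fin m) ℝ, D * Uᵀ * G * (U * D) = D * (Uᵀ * G * U) * D from
        fun D => by simp only [Matrix.mul_assoc],
      hdiag, Matrix.diagonal_mul_diagonal, Matrix.diagonal_mul_diagonal, ← Matrix.diagonal_one]
    congr 1
    funext k
    have := Real.mul_self_sqrt (hlpos k).le
    rw [show ∀ c e : ℝ, 1 / c * e * (1 / c) = e / (c * c) from fun c e => by ring, this,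
      div_self (hlpos k).ne']
  refine ⟨Tᵀ, fun h => ?_, fun j k => ?_⟩
  · have h1 := congrArg Matrix.det hTT
    rw [Matrix.det_mul, Matrix.det_mul, h, zero_mul, zero_mul, Matrix.det_one] at h1
    exact zero_ne_one h1
  · have h1 : (R * T)ᵀ * (R * T) = 1 := by
      rw [← hTT, hG, Matrix.transpose_mul]; simp only [Matrix.mul_assoc]
    have h2 := congrFun (congrFun h1 j) k
    rw [Matrix.one_apply] at h2
    rw [← h2, Matrix.mul_apply]
    simp [Matrix.mul_apply, Matrix.mulVec, dotProduct, hR, mul_comm]

/-- A weighted sum of the projections of a frame has determinant at most one. -/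
lemma det_weighted_le {u : Fin N → Fin m → ℝ} (hu : Frame u) {b : Fin N → ℝ} (hb : ∀ i, 0 ≤ b i)
    (hsum : ∑ i, b i = m) : (∑ i, b i • vecMulVec (u i) (u i)).det ≤ 1 := by
  classical
  set G := ∑ i, b i • vecMulVec (u i) (u i) with hG
  have hGp : G.PosSemidef := Matrix.posSemidef_sum _ fun i _ => by
    simpa using (Matrix.posSemidef_vecMulVec_self_star (u i)).smul (hb i)
  have hw1 : ∀ i, wgt u i ≤ 1 := fun i => by
    have h := frame_sq hu (u i)
    have h1 : wgt u i ^ 2 ≤ wgt u i := by
      refine le_trans ?_ (le_of_eq h)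
      refine le_trans (le_of_eq ?_) (Finset.single_le_sum (f := fun k => (∑ j, u k j * u i j) ^ 2)
        (fun k _ => sq_nonneg _) (Finset.mem_univ i))
      simp [wgt, sq]
    nlinarith [sq_nonneg (wgt u i - 1)]
  have htr : ∑ k, hGp.1.eigenvalues k ≤ m := by
    have e : ∑ k, hGp.1.eigenvalues k = G.trace := by
      rw [hGp.1.trace_eq_sum_eigenvalues]; simp
    rw [e, hG, Matrix.trace_sum, ← hsum]
    refine Finset.sum_le_sum fun i _ => ?_
    rw [Matrix.trace_smul, Matrix.trace_vecMulVec, smul_eq_mul]
    refine mul_le_of_le_one_right (hb i) (le_of_eq_of_le ?_ (hw1 i))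
    simp [wgt, dotProduct, sq]
  rw [hGp.1.det_eq_prod_eigenvalues]
  simp only [RCLike.ofReal_real_eq_id, id_eq]
  calc ∏ k, hGp.1.eigenvalues k ≤ ∏ k, Real.exp (hGp.1.eigenvalues k - 1) :=
        Finset.prod_le_prod (fun k _ => hGp.eigenvalues_nonneg k) fun k _ => by
          have := Real.add_one_le_exp (hGp.1.eigenvalues k - 1)
          linarith
    _ ≤ 1 := by
        rw [← Real.exp_sum]
        refine Real.exp_le_one_iff.2 ?_
        simp only [Finset.sum_sub_distrib, Finset.sum_const, Finset.card_univ, Fintype.card_fin,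
          nsmul_eq_mul, mul_one]
        linarith

end Vale.Agent.P248.FewVertices
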