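import Vale.Agent.P254.FewFacets.SectionBound

/-!
Mass of the cone over a frame against the product exponential density.
-/

noncomputable section

open MeasureTheory Set Matrix
open scoped ENNReal

namespace Vale.Agent.P248.FewVertices

open Vale.Agent.P254.FewFacets

/-- A central section of the product exponential density has mass at least the Gaussian value. -/
theorem mass_lower {m N : ℕ} (v : Fin N → Fin m → ℝ)
    (hv : ∀ j k, ∑ i, v i j * v i k = if j = k then 1 else 0) (x0 : Fin m → ℝ)
    (hx : ∀ i, ∑ j, v i j * x0 j = 1) :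
    ENNReal.ofReal ((2 * Real.pi * Real.exp 1) ^ (-((N : ℝ) - m) / 2))
      ≤ ∫⁻ x in {x : Fin m → ℝ | ∀ i, 0 ≤ ∑ j, v i j * x j},
          ENNReal.ofReal (Real.exp (-∑ i, ∑ j, v i j * x j)) := by
  set B : Matrix (Fin N) (Fin m) ℝ := Matrix.of v with hB
  have hBB : Bᵀ * B = 1 := by
    ext j k
    simp [hB, Matrix.mul_apply, hv, Matrix.one_apply]
  have hinj : Function.Injective B.mulVec := by
    intro x y h
    have := congrArg (Bᵀ *ᵥ ·) h
    simpa [Matrix.mulVec_mulVec, hBB] using this
  have hmN := (exists_completion B hinj).1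
  have hs := section_lower B hinj (z₁ := x0) (funext fun i => by
    simpa [hB, Matrix.mulVec, dotProduct] using hx i)
  rw [hBB, Matrix.det_one, Real.sqrt_one, one_mul] at hs
  have hm : Measurable fun x : Fin m → ℝ => expProd (B *ᵥ x) :=
    measurable_expProd.comp (by fun_prop : Continuous fun x => B *ᵥ x).measurable
  rw [integral_eq_lintegral_of_nonneg_ae (Filter.Eventually.of_forall fun x => expProd_nonneg _)
    hm.aestronglyMeasurable] at hs
  have e : Real.exp (-((N - m : ℕ) : ℝ) / 2 * (Real.log (2 * Real.pi) + 1))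
      = (2 * Real.pi * Real.exp 1) ^ (-((N : ℝ) - m) / 2) := by
    rw [Real.rpow_def_of_pos (by positivity), Real.log_mul (by positivity) (Real.exp_ne_zero _),
      Real.log_exp, Nat.cast_sub hmN]
    congr 1
    ring
  rw [e] at hs
  refine ((ENNReal.ofReal_le_ofReal hs).trans ENNReal.ofReal_toReal_le).trans ?_
  have hS : MeasurableSet {x : Fin m → ℝ | ∀ i, 0 ≤ ∑ j, v i j * x j} := by
    simp only [ofPred_forall]
    exact MeasurableSet.iInter fun i => measurableSet_le measurable_const (by fun_prop)
  rw [← lintegral_indicator hS]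
  refine lintegral_mono fun x => ?_
  by_cases h : ∀ i, 0 < (B *ᵥ x) i
  · rw [expProd_of_pos h, indicator_of_mem]
    · simp [hB, Matrix.mulVec, dotProduct]
    · intro i
      simpa [hB, Matrix.mulVec, dotProduct] using (h i).le
  · simp [expProd_of_not_pos h]

end Vale.Agent.P248.FewVertices
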