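import Vale.Agent.P248.FewVertices.Core

/-!
P248, few vertices: the bound for polytopes given by facets or by vertices, about every interior
point.
-/

noncomputable section

open MeasureTheory Set
open scoped ENNReal Nat Topology

namespace Vale.Agent.P248.FewVertices

open Vale.Agent.P248.Ellipsoids (polarSet)

variable {n N k : ℕ}

/-- The constant of the bound. -/
def bound (n k : ℕ) : ℝ :=
  (2 * Real.pi * Real.exp 1) ^ (-(k : ℝ) / 2) * (((n : ℝ) + 1) ^ (n + 1) / (n ! : ℝ) ^ 2)

lemma bound_le (hk : N ≤ n + 1 + k) :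
    ENNReal.ofReal (bound n k) ≤
      ENNReal.ofReal ((2 * Real.pi * Real.exp 1) ^ (-((N : ℝ) - (n + 1)) / 2) *
        (((n : ℝ) + 1) ^ (n + 1) / (n ! : ℝ) ^ 2)) := by
  refine ENNReal.ofReal_le_ofReal (mul_le_mul_of_nonneg_right ?_ (by positivity))
  refine Real.rpow_le_rpow_of_exponent_le ?_ ?_
  · nlinarith [Real.pi_gt_three, Real.one_le_exp zero_le_one]
  · have : (N : ℝ) ≤ n + 1 + k := by exact_mod_cast hk
    linarith

/-- A polytope with `n + 1 + k` facets, about any interior point. -/
theorem facets_bound (hmass : MassLower) (hn : 0 < n) (hk : N ≤ n + 1 + k)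
    (a : Fin N → Fin n → ℝ) (β : Fin N → ℝ)
    (hb : Bornology.IsBounded {x : Fin n → ℝ | ∀ i, ∑ j, a i j * x j ≤ β i})
    {z : Fin n → ℝ} (hz : z ∈ interior {x : Fin n → ℝ | ∀ i, ∑ j, a i j * x j ≤ β i}) :
    ENNReal.ofReal (bound n k) ≤ volume {x : Fin n → ℝ | ∀ i, ∑ j, a i j * x j ≤ β i} *
      volume (polarSet ((fun x => x - z) '' {x : Fin n → ℝ | ∀ i, ∑ j, a i j * x j ≤ β i})) := by
  classical
  set K := {x : Fin n → ℝ | ∀ i, ∑ j, a i j * x j ≤ β i} with hK
  set t : Fin N → ℝ := fun i => β i - ∑ j, a i j * z j with ht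
  have hzK : z ∈ K := interior_subset hz
  have ht0 : ∀ i, 0 ≤ t i := fun i => sub_nonneg.2 (hzK i)
  have hta : ∀ i, t i = 0 → ∀ j, a i j = 0 := by
    intro i hi
    have hev : ∀ᶠ s in 𝓝 (0 : ℝ), z + s • a i ∈ K :=
      ((continuous_const.add (continuous_id.smul continuous_const)).tendsto' 0 z (by simp)).eventually
        (mem_interior_iff_mem_nhds.1 hz)
    obtain ⟨ε, hε, hball⟩ := Metric.eventually_nhds_iff.1 hev
    have hs := hball (y := ε / 2) (by
      rw [dist_zero_right, Real.norm_eq_abs, abs_of_pos (by linarith)]; linarith) i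
    have e : ∑ j, a i j * (z + (ε / 2) • a i) j =
        ∑ j, a i j * z j + ε / 2 * ∑ j, a i j * a i j := by
      simp [mul_add, Finset.sum_add_distrib, Finset.mul_sum, mul_left_comm]
    rw [e] at hs
    have hi' : β i = ∑ j, a i j * z j := sub_eq_zero.1 hi
    have h2 : ∑ j, a i j * a i j ≤ 0 := by nlinarith
    intro j
    have h3 := (Finset.sum_eq_zero_iff_of_nonneg fun j _ => mul_self_nonneg (a i j)).1
      (le_antisymm h2 (Finset.sum_nonneg fun j _ => mul_self_nonneg _)) j (Finset.mem_univ j)
    exact mul_self_eq_zero.1 h3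
  set a' : Fin N → Fin n → ℝ := fun i j => a i j / t i with ha'
  set B := {y : Fin n → ℝ | ∀ i, ∑ j, a' i j * y j ≤ 1} with hB
  have hKB : (fun x => x - z) '' K = B := by
    rw [Set.image_eq_preimage_of_inverse (g := fun y => y + z) (fun x => sub_add_cancel x z)
      (fun y => add_sub_cancel_right y z)]
    ext y
    simp only [mem_preimage, hK, hB, mem_setOf_eq]
    refine forall_congr' fun i => ?_
    have e : ∑ j, a' i j * y j = (∑ j, a i j * y j) / t i := by
      rw [Finset.sum_div]
      exact Finset.sum_congr rfl fun j _ => by simp only [ha']; ring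
    have e2 : ∑ j, a i j * (y + z) j = ∑ j, a i j * y j + ∑ j, a i j * z j := by
      simp [mul_add, Finset.sum_add_distrib]
    rw [e, e2]
    rcases (ht0 i).eq_or_lt with h | h
    · have h0 := hta i h.symm
      have h' : 0 ≤ β i := by simpa [ht, h0] using ht0 i
      simp [h0, h']
    · rw [div_le_one h]
      simp only [ht]
      constructor <;> intro h' <;> linarith
  have hBb : Bornology.IsBounded B := by
    obtain ⟨C, hC⟩ := hb.exists_norm_le
    refine isBounded_iff_forall_norm_le.2 ⟨C + ‖z‖, ?_⟩
    rw [← hKB]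
    rintro _ ⟨x, hx, rfl⟩
    exact (norm_sub_le x z).trans (by linarith [hC x hx])
  have hvol : volume B = volume K := by
    rw [← hKB, Set.image_eq_preimage_of_inverse (g := fun y => y + z) (fun x => sub_add_cancel x z)
      (fun y => add_sub_cancel_right y z)]
    exact measure_preimage_add_right _ _ _
  rw [hKB, ← hvol]
  exact (bound_le hk).trans (core hmass hn a' hBb)

/-- The convex hull of `n + 1 + k` points, about any interior point. -/
theorem vertices_bound (hmass : MassLower) (hn : 0 < n) (hk : N ≤ n + 1 + k)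
    (p : Fin N → Fin n → ℝ) {z : Fin n → ℝ} (hz : z ∈ interior (convexHull ℝ (range p))) :
    ENNReal.ofReal (bound n k) ≤ volume (convexHull ℝ (range p)) *
      volume (polarSet ((fun x => x - z) '' convexHull ℝ (range p))) := by
  classical
  set K := convexHull ℝ (range p) with hK
  set K' := (fun x => x - z) '' K with hK'
  set a : Fin N → Fin n → ℝ := fun i => p i - z with ha
  set B := {y : Fin n → ℝ | ∀ i, ∑ j, a i j * y j ≤ 1} with hB
  have hP : polarSet K' = B := by
    ext y
    simp only [polarSet, hK', forall_mem_image, hB, mem_setOf_eq, ha]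
    constructor
    · intro h i
      refine le_trans (le_of_eq ?_) (h (subset_convexHull ℝ _ ⟨i, rfl⟩))
      exact Finset.sum_congr rfl fun j _ => mul_comm _ _
    · intro h x hx
      have hconv : Convex ℝ {w : Fin n → ℝ | ∑ j, y j * (w - z) j ≤ 1} := by
        have e : {w : Fin n → ℝ | ∑ j, y j * (w - z) j ≤ 1} =
            {w : Fin n → ℝ | ∑ j, y j * w j ≤ 1 + ∑ j, y j * z j} := by
          ext w
          simp [mul_sub, Finset.sum_sub_distrib, sub_le_iff_le_add]
        rw [e]
        exact convex_halfSpace_le ⟨fun c d => by simp [mul_add, Finset.sum_add_distrib],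
          fun c d => by simp [Finset.mul_sum, mul_left_comm]⟩ _
      refine convexHull_min ?_ hconv hx
      rintro _ ⟨i, rfl⟩
      refine le_trans (le_of_eq ?_) (h i)
      exact Finset.sum_congr rfl fun j _ => mul_comm _ _
  have hKc : IsCompact K := (finite_range p).isCompact_convexHull ℝ
  have hK'c : IsCompact K' := hKc.image (by fun_prop)
  have hK'conv : Convex ℝ K' := by
    have : K' = (fun x => (-z) + x) '' K := by
      simp only [hK', neg_add_eq_sub]
    rw [this]
    exact (convex_convexHull ℝ _).translate _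
  have h0 : (0 : Fin n → ℝ) ∈ interior K' := by
    have : K' = (Homeomorph.addRight (-z)) '' K := by
      simp [hK', sub_eq_add_neg]
    rw [this, ← Homeomorph.image_interior]
    exact ⟨z, hz, by simp⟩
  have hBb : Bornology.IsBounded B := by
    obtain ⟨ε, hε, hball⟩ := Metric.mem_nhds_iff.1 (mem_interior_iff_mem_nhds.1 h0)
    refine isBounded_iff_forall_norm_le.2 ⟨2 / ε, fun y hy => ?_⟩
    rw [← hP] at hy
    refine (pi_norm_le_iff_of_nonneg (by positivity)).2 fun j => ?_
    have hmem : ∀ s : ℝ, |s| = ε / 2 → (Pi.single j s : Fin n → ℝ) ∈ K' := fun s hs =>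
      hball (by rw [Metric.mem_ball, dist_zero_right, Pi.norm_single, Real.norm_eq_abs, hs]; linarith)
    have h1 := hy _ (hmem (ε / 2) (abs_of_pos (by linarith)))
    have h2 := hy _ (hmem (-(ε / 2)) (by rw [abs_neg, abs_of_pos (by linarith)]))
    simp [Pi.single_apply] at h1 h2
    rw [Real.norm_eq_abs, abs_le, neg_le, le_div_iff₀ hε, le_div_iff₀ hε]
    constructor <;> nlinarith
  have hbi : polarSet B ⊆ K' := by
    intro y hy
    by_contra hyn
    obtain ⟨f, r, hfK, hfy⟩ := geometric_hahn_banach_closed_point hK'conv hK'c.isClosed hyn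
    have hr : 0 < r := by simpa using hfK 0 (interior_subset h0)
    set w : Fin n → ℝ := fun j => r⁻¹ * f (Pi.single j 1) with hw
    have hf : ∀ x : Fin n → ℝ, f x = ∑ j, f (Pi.single j 1) * x j := fun x => by
      conv_lhs => rw [pi_eq_sum_univ' x]
      simp [map_sum, mul_comm]
    have hwf : ∀ x : Fin n → ℝ, ∑ j, w j * x j = r⁻¹ * f x := fun x => by
      rw [hf x, Finset.mul_sum]
      exact Finset.sum_congr rfl fun j _ => by simp only [hw]; ring
    have hwB : w ∈ B := by
      rw [← hP]
      intro x hx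
      rw [hwf, inv_mul_le_one₀ hr]
      exact (hfK x hx).le
    have h1 := hy w hwB
    rw [Finset.sum_congr rfl fun j _ => mul_comm (y j) (w j), hwf, inv_mul_le_one₀ hr] at h1
    linarith
  have hvol : volume K' = volume K := by
    rw [hK', Set.image_eq_preimage_of_inverse (g := fun y => y + z) (fun x => sub_add_cancel x z)
      (fun y => add_sub_cancel_right y z)]
    exact measure_preimage_add_right _ _ _
  rw [hP, ← hvol]
  refine ((bound_le hk).trans (core hmass hn a hBb)).trans ?_
  rw [mul_comm]
  exact mul_le_mul' (measure_mono hbi) le_rfl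

end Vale.Agent.P248.FewVertices
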